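import Mathlib

/-!
# P045: covering numbers and matching numbers, general facts
-/

namespace Vale.Agent.P045.H114

open Finset

section

variable {V : Type}

/-- `t` is the covering number of `E`. -/
def IsTau (E : Finset (Finset V)) (t : ℕ) : Prop :=
  IsLeast {k | ∃ C : Finset V, (∀ e ∈ E, ∃ v ∈ e, v ∈ C) ∧ C.card = k} t

/-- `n` is the matching number of `E`. -/
def IsNu (E : Finset (Finset V)) (n : ℕ) : Prop :=
  IsGreatest {k | ∃ M : Finset (Finset V), M ⊆ E ∧ (M : Set (Finset V)).Pairwise Disjoint ∧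
    M.card = k} n

/-- every edge has exactly one vertex in every part -/
def IsPart {r : ℕ} (part : V → Fin r) (E : Finset (Finset V)) : Prop :=
  ∀ e ∈ E, ∀ i : Fin r, ∃! v, v ∈ e ∧ part v = i

theorem exists_tau {E : Finset (Finset V)} (hne : ∀ e ∈ E, e.Nonempty) : ∃ t, IsTau E t := by
  classical
  have h : {k | ∃ C : Finset V, (∀ e ∈ E, ∃ v ∈ e, v ∈ C) ∧ C.card = k}.Nonempty := by
    refine ⟨_, E.biUnion id, ?_, rfl⟩
    intro e he
    obtain ⟨v, hv⟩ := hne e he
    exact ⟨v, hv, mem_biUnion.2 ⟨e, he, hv⟩⟩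
  exact ⟨sInf _, Nat.sInf_mem h, fun k hk => Nat.sInf_le hk⟩

theorem exists_nu (E : Finset (Finset V)) : ∃ n, IsNu E n := by
  have h : {k | ∃ M : Finset (Finset V), M ⊆ E ∧ (M : Set (Finset V)).Pairwise Disjoint ∧
      M.card = k}.Nonempty := ⟨0, ∅, empty_subset _, by simp, rfl⟩
  have hb : BddAbove {k | ∃ M : Finset (Finset V), M ⊆ E ∧
      (M : Set (Finset V)).Pairwise Disjoint ∧ M.card = k} := by
    refine ⟨E.card, ?_⟩
    rintro k ⟨M, hM, -, rfl⟩
    exact card_le_card hM
  exact ⟨sSup _, Nat.sSup_mem h hb, fun k hk => le_csSup hb hk⟩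

theorem tau_le {E : Finset (Finset V)} {t : ℕ} (h : IsTau E t) {C : Finset V}
    (hC : ∀ e ∈ E, ∃ v ∈ e, v ∈ C) : t ≤ C.card := h.2 ⟨C, hC, rfl⟩

theorem le_nu {E : Finset (Finset V)} {n : ℕ} (h : IsNu E n) {M : Finset (Finset V)}
    (hM : M ⊆ E) (hd : (M : Set (Finset V)).Pairwise Disjoint) : M.card ≤ n := h.2 ⟨M, hM, hd, rfl⟩

theorem tau_mono {E K : Finset (Finset V)} {t s : ℕ} (h : IsTau E t) (hK : IsTau K s)
    (hKE : K ⊆ E) : s ≤ t := by
  obtain ⟨C, hC, rfl⟩ := h.1
  exact tau_le hK fun e he => hC e (hKE he)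

theorem tau_le_erase [DecidableEq V] {E : Finset (Finset V)} {e : Finset V} (he : e.Nonempty)
    {t s : ℕ} (h : IsTau E t) (hs : IsTau (E.erase e) s) : t ≤ s + 1 := by
  obtain ⟨C, hC, rfl⟩ := hs.1
  obtain ⟨v, hv⟩ := he
  refine (tau_le h (C := insert v C) ?_).trans (card_insert_le _ _)
  intro f hf
  by_cases hfe : f = e
  · subst hfe
    exact ⟨v, hv, mem_insert_self _ _⟩
  · obtain ⟨w, hw, hwC⟩ := hC f (mem_erase.2 ⟨hfe, hf⟩)
    exact ⟨w, hw, mem_insert_of_mem hwC⟩

theorem tau_matching {M : Finset (Finset V)} (hne : ∀ e ∈ M, e.Nonempty)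
    (hd : (M : Set (Finset V)).Pairwise Disjoint) : IsTau M M.card := by
  classical
  rcases M.eq_empty_or_nonempty with rfl | ⟨e₀, he₀⟩
  · refine ⟨⟨∅, by simp, rfl⟩, fun k _ => ?_⟩
    rw [card_empty]
    exact Nat.zero_le k
  have hV : Nonempty V := ⟨(hne e₀ he₀).choose⟩
  choose! g hg using hne
  refine ⟨⟨M.image g, fun e he => ⟨g e, hg e he, mem_image_of_mem _ he⟩, ?_⟩, ?_⟩
  · apply card_image_of_injOn
    intro e he f hf hef
    by_contra hne'
    have h1 := hd he hf hne'
    have h2 : g e = g f := hef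
    exact (disjoint_left.1 h1) (hg e he) (h2 ▸ hg f hf)
  · rintro k ⟨C, hC, rfl⟩
    choose! c hc hcC using hC
    refine card_le_card_of_injOn c (fun e he => hcC e he) ?_
    intro e he f hf hef
    by_contra hne'
    have h1 := hd he hf hne'
    have h2 : c e = c f := hef
    exact (disjoint_left.1 h1) (hc e he) (h2 ▸ hc f hf)

/-- Intermediate values of the covering number. -/
theorem exists_between {M : Finset (Finset V)} (hd : (M : Set (Finset V)).Pairwise Disjoint)
    (N : ℕ) : ∀ (E : Finset (Finset V)), E.card = N → (∀ e ∈ E, e.Nonempty) → M ⊆ E →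
    ∀ t b : ℕ, IsTau E t → M.card ≤ b → b ≤ t → ∃ K, M ⊆ K ∧ K ⊆ E ∧ IsTau K b := by
  classical
  induction N with
  | zero =>
    intro E hE hne hM t b ht h1 h2
    have hE0 : E = ∅ := card_eq_zero.1 hE
    have hM0 : M = E := by
      apply Subset.antisymm hM
      rw [hE0]
      exact empty_subset _
    have h3 : IsTau E M.card := by
      have := tau_matching (M := M) (fun e he => hne e (hM he)) hd
      rwa [hM0] at this ⊢
    have h4 : t = M.card := le_antisymm (ht.2 h3.1) (h3.2 ht.1)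
    have h5 : b = t := le_antisymm h2 (h4 ▸ h1)
    exact ⟨E, hM, Subset.refl _, h5 ▸ ht⟩
  | succ N ih =>
    intro E hE hne hM t b ht h1 h2
    rcases eq_or_lt_of_le h2 with h3 | h3
    · exact ⟨E, hM, Subset.refl _, h3 ▸ ht⟩
    · have hME : M ≠ E := by
        intro h
        have h4 : IsTau E M.card := by
          have := tau_matching (M := M) (fun e he => hne e (hM he)) hd
          rwa [h] at this ⊢
        have h5 : t = M.card := le_antisymm (ht.2 h4.1) (h4.2 ht.1)
        omega
      obtain ⟨e, heE, heM⟩ := Finset.exists_of_ssubset (hM.ssubset_of_ne hME)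
      have hne' : ∀ f ∈ E.erase e, f.Nonempty := fun f hf => hne f (mem_of_mem_erase hf)
      obtain ⟨s, hs⟩ := exists_tau hne'
      have h4 := tau_le_erase (hne e heE) ht hs
      obtain ⟨K, hMK, hKE, hK⟩ := ih (E.erase e) (by rw [card_erase_of_mem heE, hE]; rfl) hne'
        (fun f hf => mem_erase.2 ⟨fun h => heM (h ▸ hf), hM hf⟩) s b hs h1 (by omega)
      exact ⟨K, hMK, hKE.trans (erase_subset _ _), hK⟩

/-- For every `b` between the matching number and the covering number some subhypergraph has the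
same matching number and covering number `b`. -/
theorem exists_sub {E : Finset (Finset V)} (hne : ∀ e ∈ E, e.Nonempty) {n t b : ℕ}
    (hn : IsNu E n) (ht : IsTau E t) (h1 : n ≤ b) (h2 : b ≤ t) :
    ∃ K ⊆ E, IsNu K n ∧ IsTau K b := by
  obtain ⟨M, hM, hd, hc⟩ := hn.1
  obtain ⟨K, hMK, hKE, hK⟩ := exists_between hd E.card E rfl hne hM t b ht (hc ▸ h1) h2
  refine ⟨K, hKE, ⟨⟨M, hMK, hd, hc⟩, ?_⟩, hK⟩
  rintro k ⟨M', hM', hd', rfl⟩
  exact le_nu hn (hM'.trans hKE) hd'

theorem IsPart.mono {r : ℕ} {part : V → Fin r} {E K : Finset (Finset V)} (h : IsPart part E)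
    (hK : K ⊆ E) : IsPart part K := fun e he => h e (hK he)

theorem IsPart.card {r : ℕ} {part : V → Fin r} {E : Finset (Finset V)} (h : IsPart part E)
    {e : Finset V} (he : e ∈ E) : e.card = r := by
  classical
  choose g hg using fun i => (h e he i).exists
  have h1 : e = univ.image g := by
    ext v
    constructor
    · intro hv
      exact mem_image.2 ⟨part v, mem_univ _, (h e he (part v)).unique (hg _) ⟨hv, rfl⟩⟩
    · intro hv
      obtain ⟨i, _, rfl⟩ := mem_image.1 hv
      exact (hg i).1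
  have hinj : Function.Injective g := by
    intro i j hij
    rw [← (hg i).2, ← (hg j).2, hij]
  rw [h1, card_image_of_injective _ hinj, card_univ, Fintype.card_fin]

theorem IsPart.nonempty {r : ℕ} (hr : 0 < r) {part : V → Fin r} {E : Finset (Finset V)}
    (h : IsPart part E) : ∀ e ∈ E, e.Nonempty := by
  intro e he
  rw [← card_pos, h.card he]
  exact hr

theorem nu_le_tau {E : Finset (Finset V)} (hne : ∀ e ∈ E, e.Nonempty) {n t : ℕ}
    (hn : IsNu E n) (ht : IsTau E t) : n ≤ t := by
  obtain ⟨M, hM, hd, rfl⟩ := hn.1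
  exact tau_mono ht (tau_matching (fun e he => hne e (hM he)) hd) hM

theorem tau_le_mul {r : ℕ} (hr : 0 < r) {part : V → Fin r} {E : Finset (Finset V)}
    (h : IsPart part E) {n t : ℕ} (hn : IsNu E n) (ht : IsTau E t) : t ≤ r * n := by
  classical
  obtain ⟨M, hM, hd, rfl⟩ := hn.1
  have h1 : (M.biUnion id).card ≤ r * M.card := by
    rw [mul_comm]
    exact card_biUnion_le_card_mul _ _ _ fun e he => (h.card (hM he)).le
  refine (tau_le ht (C := M.biUnion id) ?_).trans h1
  intro e he
  by_contra hcon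
  push Not at hcon
  have h2 : ∀ f ∈ M, Disjoint e f := by
    intro f hf
    rw [disjoint_left]
    intro v hv hvf
    exact hcon v hv (mem_biUnion.2 ⟨f, hf, hvf⟩)
  have heM : e ∉ M := by
    intro heM
    obtain ⟨v, hv⟩ := h.nonempty hr e he
    exact (disjoint_left.1 (h2 e heM)) hv hv
  have h3 := le_nu hn (M := insert e M) (insert_subset he hM) (by
    rw [coe_insert]
    refine Set.pairwise_insert.2 ⟨hd, fun f hf _ => ?_⟩
    exact ⟨h2 f hf, (h2 f hf).symm⟩)
  rw [card_insert_of_notMem heM] at h3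
  omega

/-- If `τ = r ν`, then no fewer than `r` vertices lower the matching number. -/
theorem exists_matching_avoiding {r : ℕ} (hr : 0 < r) {part : V → Fin r} {E : Finset (Finset V)}
    (h : IsPart part E) {n : ℕ} (ht : IsTau E (r * n)) (C : Finset V)
    (hC : C.card < r) : ∃ M ⊆ E, (M : Set (Finset V)).Pairwise Disjoint ∧ M.card = n ∧
      ∀ e ∈ M, Disjoint e C := by
  classical
  have hK : IsPart part (E.filter fun e => Disjoint e C) := h.mono (filter_subset _ _)
  obtain ⟨m, hm⟩ := exists_nu (E.filter fun e => Disjoint e C)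
  obtain ⟨s, hs⟩ := exists_tau (hK.nonempty hr)
  have h1 := tau_le_mul hr hK hm hs
  have h2 : r * n ≤ s + C.card := by
    obtain ⟨D, hD, rfl⟩ := hs.1
    refine (tau_le ht (C := D ∪ C) ?_).trans (card_union_le _ _)
    intro e he
    by_cases hdis : Disjoint e C
    · obtain ⟨v, hv, hvD⟩ := hD e (mem_filter.2 ⟨he, hdis⟩)
      exact ⟨v, hv, mem_union_left _ hvD⟩
    · rw [not_disjoint_iff] at hdis
      obtain ⟨v, hv, hvC⟩ := hdis
      exact ⟨v, hv, mem_union_right _ hvC⟩
  have h3 : n ≤ m := by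
    by_contra hcon
    push Not at hcon
    have h4 : r * (m + 1) ≤ r * n := Nat.mul_le_mul_left r hcon
    rw [mul_add, mul_one] at h4
    omega
  obtain ⟨M, hM, hd, hc⟩ := hm.1
  obtain ⟨M', hM', hc'⟩ := Finset.exists_subset_card_eq (h3.trans_eq hc.symm)
  refine ⟨M', (hM'.trans hM).trans (filter_subset _ _), hd.mono (by exact_mod_cast hM'), hc', ?_⟩
  intro e he
  exact (mem_filter.1 (hM (hM' he))).2

end

section Graph

variable {W : Type} {r : ℕ}

/-- the graph of the edges of colour `i` -/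
def colourGraph (G : SimpleGraph W) (c : Sym2 W → Fin r) (i : Fin r) : SimpleGraph W :=
  SimpleGraph.fromEdgeSet {z | z ∈ G.edgeSet ∧ c z = i}

/-- the least number of monochromatic trees which cover all vertices -/
def IsTreeCover (G : SimpleGraph W) (c : Sym2 W → Fin r) (t : ℕ) : Prop :=
  IsLeast {k | ∃ S : Finset (Fin r × W),
    (∀ w, ∃ s ∈ S, (colourGraph G c s.1).Reachable s.2 w) ∧ S.card = k} t

theorem colourGraph_adj (G : SimpleGraph W) (c : Sym2 W → Fin r) {x y : W} (h : G.Adj x y) :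
    (colourGraph G c (c s(x, y))).Adj x y := by
  rw [colourGraph, SimpleGraph.fromEdgeSet_adj]
  exact ⟨⟨h, rfl⟩, h.ne⟩

/-- A hypergraph with `τ = r ν` gives a graph with an `r`-colouring of its edges. -/
theorem exists_graph (hr : 0 < r) {V : Type} {part : V → Fin r} {E : Finset (Finset V)}
    (h : IsPart part E) {n : ℕ} (hn : IsNu E n) (ht : IsTau E (r * n)) :
    ∃ (W : Type) (_ : Fintype W) (G : SimpleGraph W) (c : Sym2 W → Fin r),
      Fintype.card W = E.card ∧ G.indepNum = n ∧ IsTreeCover G c (r * n) ∧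
        (n = 1 → G = ⊤) := by
  classical
  let W := {e // e ∈ E}
  let G : SimpleGraph W :=
    { Adj := fun e f => e ≠ f ∧ ¬ Disjoint e.1 f.1
      symm := ⟨fun e f h => ⟨h.1.symm, fun h' => h.2 h'.symm⟩⟩
      loopless := ⟨fun e h => h.1 rfl⟩ }
  have hadj : ∀ e f : W, G.Adj e f ↔ e ≠ f ∧ ¬ Disjoint e.1 f.1 := fun _ _ => Iff.rfl
  let P : Sym2 W → Fin r → Prop := fun z i => ∃ v, part v = i ∧ ∀ e ∈ z, v ∈ e.1
  let c : Sym2 W → Fin r := fun z => if h : ∃ i, P z i then h.choose else ⟨0, hr⟩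
  have hc : ∀ z, (∃ i, P z i) → P z (c z) := by
    intro z hz
    have : c z = hz.choose := dif_pos hz
    rw [this]
    exact hz.choose_spec
  have hP : ∀ e f : W, G.Adj e f → P s(e, f) (c s(e, f)) := by
    intro e f hef
    apply hc
    have h1 := hef.2
    rw [not_disjoint_iff] at h1
    obtain ⟨v, hve, hvf⟩ := h1
    refine ⟨part v, v, rfl, ?_⟩
    intro g hg
    rw [Sym2.mem_iff] at hg
    rcases hg with rfl | rfl
    · exact hve
    · exact hvf
  -- the vertex of an edge in a part
  choose φ hφ using fun (i : Fin r) (e : W) => (h e.1 e.2 i).exists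
  have hφu : ∀ i (e : W) v, v ∈ e.1 → part v = i → v = φ i e := fun i e v h1 h2 =>
    (h e.1 e.2 i).unique ⟨h1, h2⟩ (hφ i e)
  have hreach : ∀ i (e f : W), (colourGraph G c i).Reachable e f → φ i e = φ i f := by
    rintro i e f ⟨p⟩
    induction p with
    | nil => rfl
    | @cons a b d hab _ ih =>
      rw [← ih]
      have h1 : s(a, b) ∈ G.edgeSet ∧ c s(a, b) = i := by
        have h2 := (SimpleGraph.fromEdgeSet_adj _).1 hab
        exact h2.1
      obtain ⟨v, hv, hvab⟩ := hP a b h1.1
      rw [h1.2] at hv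
      rw [← hφu i a v (hvab a (Sym2.mem_mk_left a b)) hv,
        ← hφu i b v (hvab b (Sym2.mem_mk_right a b)) hv]
  -- independent sets
  have hle : ∀ s : Finset W, G.IsIndepSet s → s.card ≤ n := by
    intro s hs
    have h1 := le_nu hn (M := s.map ⟨Subtype.val, Subtype.val_injective⟩) (by
        intro e he
        rw [mem_map] at he
        obtain ⟨w, -, rfl⟩ := he
        exact w.2) (by
        intro e he f hf hef
        rw [mem_coe, mem_map] at he hf
        obtain ⟨e', he', rfl⟩ := he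
        obtain ⟨f', hf', rfl⟩ := hf
        have hne : e' ≠ f' := fun h => hef (by rw [h])
        by_contra hdis
        exact hs he' hf' hne ⟨hne, hdis⟩)
    rwa [card_map] at h1
  obtain ⟨M, hM, hd, hMc⟩ := hn.1
  let s : Finset W := univ.filter fun w => w.1 ∈ M
  have hsc : s.card = n := by
    rw [← hMc, ← card_map ⟨Subtype.val, Subtype.val_injective⟩]
    congr 1
    ext e
    rw [mem_map]
    constructor
    · rintro ⟨w, hw, rfl⟩
      exact (mem_filter.1 hw).2
    · intro he
      exact ⟨⟨e, hM he⟩, mem_filter.2 ⟨mem_univ _, he⟩, rfl⟩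
  have hsi : G.IsIndepSet s := by
    intro e he f hf hef hadj
    have he' := (mem_filter.1 he).2
    have hf' := (mem_filter.1 hf).2
    exact hadj.2 (hd he' hf' fun h => hef (Subtype.ext h))
  refine ⟨W, inferInstance, G, c, Fintype.card_coe E, ?_, ⟨?_, ?_⟩, ?_⟩
  · apply le_antisymm
    · obtain ⟨s', hs'⟩ := G.exists_isNIndepSet_indepNum
      rw [← hs'.card_eq]
      exact hle s' hs'.isIndepSet
    · rw [← hsc]
      exact hsi.card_le_indepNum
  · refine ⟨univ ×ˢ s, ?_, by rw [card_product, card_univ, Fintype.card_fin, hsc]⟩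
    intro w
    by_cases hw : w ∈ s
    · exact ⟨(⟨0, hr⟩, w), mem_product.2 ⟨mem_univ _, hw⟩, SimpleGraph.Reachable.refl _⟩
    · have h1 : ∃ w' ∈ s, G.Adj w' w := by
        by_contra hcon
        push Not at hcon
        have h2 := hle (insert w s) (by
          rw [coe_insert, SimpleGraph.IsIndepSet, Set.pairwise_insert]
          refine ⟨hsi, fun w' hw' _ => ⟨fun h' => hcon w' hw' h'.symm, hcon w' hw'⟩⟩)
        rw [card_insert_of_notMem hw, hsc] at h2
        omega
      obtain ⟨w', hw', hadj'⟩ := h1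
      exact ⟨(c s(w', w), w'), mem_product.2 ⟨mem_univ _, hw'⟩,
        (colourGraph_adj G c hadj').reachable⟩
  · rintro k ⟨S, hS, rfl⟩
    refine (tau_le ht (C := S.image fun s => φ s.1 s.2) ?_).trans card_image_le
    intro e he
    obtain ⟨s, hs, hsr⟩ := hS ⟨e, he⟩
    refine ⟨φ s.1 ⟨e, he⟩, (hφ _ _).1, ?_⟩
    rw [← hreach _ _ _ hsr]
    exact mem_image.2 ⟨s, hs, rfl⟩
  · rintro rfl
    ext e f
    rw [SimpleGraph.top_adj, hadj]
    refine ⟨fun h => h.1, fun hef => ⟨hef, fun hdis => ?_⟩⟩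
    have h1 := hle {e, f} (by
      intro a ha b hb hab hadj'
      have h2 : ∀ x : W, x ∈ (({e, f} : Finset W) : Set W) → x = e ∨ x = f := by
        intro x hx
        simpa using hx
      rcases h2 a ha with rfl | rfl <;> rcases h2 b hb with rfl | rfl
      · exact hab rfl
      · exact hadj'.2 hdis
      · exact hadj'.2 hdis.symm
      · exact hab rfl)
    rw [card_pair hef] at h1
    omega

end Graph

end Vale.Agent.P045.H114
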