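import Vale.Agent.P045.H114.Small
import Vale.Agent.P045.H414.Final

/-!
# P045: all pairs of matching number and covering number, small examples, edge colourings
-/

namespace Vale.Agent.P045.H114

open Finset

/-- bridge from the structure of the earlier files -/
theorem exists_base {r : ℕ} (hr : 0 < r)
    (h : ∃ (V : Type) (_ : Fintype V) (H : PartiteHypergraph r V),
      H.IsIntersecting ∧ H.matchingNumber = 1 ∧ H.coveringNumber = r) :
    ∃ (V : Type) (_ : Fintype V) (part : V → Fin r) (E : Finset (Finset V)), IsPart part E ∧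
      E.Nonempty ∧ (∀ e ∈ E, ∀ f ∈ E, ¬ Disjoint e f) ∧ IsTau E r ∧
      E.card ≤ (2 * r - 1).choose r := by
  obtain ⟨V, iV, H, ⟨hne, hI⟩, -, hτ⟩ := h
  have hP : IsPart H.part H.edges := H.exact
  obtain ⟨t, ht⟩ := exists_tau (hP.nonempty hr)
  have htr : t = r := by
    rw [← hτ]
    apply le_antisymm
    · exact le_csInf ⟨t, ht.1⟩ fun k hk => ht.2 hk
    · exact Nat.sInf_le ht.1
  rw [htr] at ht
  obtain ⟨K, hK, hKτ, hKc⟩ := exists_small hr (fun e he => hP.card he) ht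
  refine ⟨V, iV, H.part, K, hP.mono hK, ?_, ?_, hKτ, ?_⟩
  · by_contra hcon
    rw [not_nonempty_iff_eq_empty] at hcon
    have := tau_le hKτ (C := ∅) (by rw [hcon]; simp)
    rw [card_empty] at this
    omega
  · intro e he f hf
    obtain ⟨v, hve, hvf⟩ := hI e (hK he) f (hK hf)
    exact not_disjoint_iff.2 ⟨v, hve, hvf⟩
  · rw [two_mul]
    exact hKc

theorem isNu_one_iff {V : Type} {E : Finset (Finset V)} (hne : ∀ e ∈ E, e.Nonempty) :
    IsNu E 1 ↔ E.Nonempty ∧ ∀ e ∈ E, ∀ f ∈ E, ¬ Disjoint e f := by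
  classical
  constructor
  · intro h
    obtain ⟨M, hM, hd, hc⟩ := h.1
    obtain ⟨e, rfl⟩ := card_eq_one.1 hc
    refine ⟨⟨e, hM (mem_singleton_self _)⟩, fun f hf g hg hfg => ?_⟩
    have hfgne : f ≠ g := by
      rintro rfl
      obtain ⟨v, hv⟩ := hne f hf
      exact (disjoint_left.1 hfg) hv hv
    have h1 := le_nu h (M := {f, g}) (by
      intro x hx
      rw [mem_insert, mem_singleton] at hx
      rcases hx with rfl | rfl
      · exact hf
      · exact hg) (by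
      rw [coe_insert, coe_singleton]
      exact (Set.pairwise_pair_of_symm).2 fun _ => hfg)
    rw [card_pair hfgne] at h1
    omega
  · rintro ⟨⟨e, he⟩, hI⟩
    refine ⟨⟨{e}, by simpa using he, by simp, by simp⟩, ?_⟩
    rintro k ⟨M, hM, hd, rfl⟩
    rw [card_le_one]
    intro a ha b hb
    by_contra hab
    exact hI a (hM ha) b (hM hb) (hd (by exact_mod_cast ha) (by exact_mod_cast hb) hab)

/-- all pairs -/
theorem spectrum {r : ℕ} (hr : 0 < r) {V : Type} [Fintype V] {part : V → Fin r}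
    {E : Finset (Finset V)} (hP : IsPart part E) (hE : E.Nonempty)
    (hI : ∀ e ∈ E, ∀ f ∈ E, ¬ Disjoint e f) (hτ : IsTau E r)
    (hc : E.card ≤ (2 * r - 1).choose r) {a b : ℕ} (h1 : a ≤ b) (h2 : b ≤ r * a) :
    ∃ (V : Type) (_ : Fintype V) (part : V → Fin r) (E : Finset (Finset V)), IsPart part E ∧
      IsNu E a ∧ IsTau E b ∧ E.card ≤ a * (2 * r - 1).choose r := by
  obtain ⟨part', E', hP', hν', hτ', hc'⟩ := exists_copies hr hP hE hI hτ a
  obtain ⟨K, hK, hKν, hKτ⟩ := exists_sub (hP'.nonempty hr) hν' hτ' h1 h2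
  exact ⟨_, inferInstance, part', K, hP'.mono hK, hKν, hKτ,
    (card_le_card hK).trans (hc'.trans (Nat.mul_le_mul_left a hc))⟩

theorem main {r : ℕ} (hr : 0 < r)
    (h : ∃ (V : Type) (_ : Fintype V) (H : PartiteHypergraph r V),
      H.IsIntersecting ∧ H.matchingNumber = 1 ∧ H.coveringNumber = r) :
    (∀ a b : ℕ, (∃ (V : Type) (_ : Fintype V) (part : V → Fin r) (E : Finset (Finset V)),
      IsPart part E ∧ IsNu E a ∧ IsTau E b ∧ E.card ≤ a * (2 * r - 1).choose r) ↔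
        a ≤ b ∧ b ≤ r * a) ∧
    (∀ t : ℕ, (∃ (V : Type) (_ : Fintype V) (part : V → Fin r) (E : Finset (Finset V)),
      IsPart part E ∧ E.Nonempty ∧ (∀ e ∈ E, ∀ f ∈ E, ¬ Disjoint e f) ∧ IsTau E t ∧
        E.card ≤ (2 * r - 1).choose r) ↔ 1 ≤ t ∧ t ≤ r) ∧
    (∀ a : ℕ, ∃ (V : Type) (_ : Fintype V) (part : V → Fin r) (E : Finset (Finset V)),
      IsPart part E ∧ IsNu E a ∧ ∀ C : Finset V, C.card ≤ r - 1 →
        ∃ M ⊆ E, (M : Set (Finset V)).Pairwise Disjoint ∧ M.card = a ∧ ∀ e ∈ M, Disjoint e C) ∧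
    (∀ a : ℕ, ∃ (W : Type) (_ : Fintype W) (G : SimpleGraph W) (c : Sym2 W → Fin r),
      Fintype.card W ≤ a * (2 * r - 1).choose r ∧ G.indepNum = a ∧ IsTreeCover G c (r * a) ∧
        (a = 1 → G = ⊤)) := by
  obtain ⟨V, iV, part, E, hP, hE, hI, hτ, hc⟩ := exists_base hr h
  refine ⟨fun a b => ⟨?_, fun h => spectrum hr hP hE hI hτ hc h.1 h.2⟩, fun t => ⟨?_, ?_⟩, ?_, ?_⟩
  · rintro ⟨V', _, part', E', hP', hν', hτ', -⟩
    exact ⟨nu_le_tau (hP'.nonempty hr) hν' hτ', tau_le_mul hr hP' hν' hτ'⟩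
  · rintro ⟨V', _, part', E', hP', hE', hI', hτ', -⟩
    have hν' : IsNu E' 1 := (isNu_one_iff (hP'.nonempty hr)).2 ⟨hE', hI'⟩
    have h2 := tau_le_mul hr hP' hν' hτ'
    rw [mul_one] at h2
    exact ⟨nu_le_tau (hP'.nonempty hr) hν' hτ', h2⟩
  · rintro ⟨h1, h2⟩
    obtain ⟨V', i', part', E', hP', hν', hτ', hc'⟩ :=
      spectrum hr hP hE hI hτ hc (a := 1) h1 (by rwa [mul_one])
    obtain ⟨hE', hI'⟩ := (isNu_one_iff (hP'.nonempty hr)).1 hν'
    rw [one_mul] at hc'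
    exact ⟨V', i', part', E', hP', hE', hI', hτ', hc'⟩
  · intro a
    obtain ⟨V', i', part', E', hP', hν', hτ', hc'⟩ :=
      spectrum hr hP hE hI hτ hc (a := a) (b := r * a) (Nat.le_mul_of_pos_left a hr) le_rfl
    exact ⟨V', i', part', E', hP', hν', fun C hC =>
      exists_matching_avoiding hr hP' hτ' C (by omega)⟩
  · intro a
    obtain ⟨V', i', part', E', hP', hν', hτ', hc'⟩ :=
      spectrum hr hP hE hI hτ hc (a := a) (b := r * a) (Nat.le_mul_of_pos_left a hr) le_rfl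
    obtain ⟨W, iW, G, c, h1, h2, h3, h4⟩ := exists_graph hr hP' hν' hτ'
    exact ⟨W, iW, G, c, h1.trans_le hc', h2, h3, h4⟩

theorem all_large : ∃ R : ℕ, ∀ r : ℕ,
    (R ≤ r ∨ ∃ h : ℕ, 5 ≤ h ∧ Nat.Coprime h 126 ∧ r = 127 ^ h + 635) → 0 < r ∧
    ∃ (V : Type) (_ : Fintype V) (H : PartiteHypergraph r V),
      H.IsIntersecting ∧ H.matchingNumber = 1 ∧ H.coveringNumber = r := by
  obtain ⟨R, hR⟩ := _root_.P045.LS.final_all_large
  refine ⟨R + 1, fun r hr => ?_⟩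
  rcases hr with hr | ⟨h, h5, hc, rfl⟩
  · exact ⟨by omega, (hR r (by omega)).1⟩
  · exact ⟨by positivity, (_root_.P045.LS.final_of_dual _root_.P045.LS.dualCE_main).1 h h5 hc⟩

end Vale.Agent.P045.H114
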