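import Vale.Agent.P045.H114.Gen

/-!
# P045: small subhypergraphs with the same covering number (Bollobás), disjoint copies
-/

namespace Vale.Agent.P045.H114

open Finset

section Bollobas

variable {V ι : Type} [DecidableEq V] [DecidableEq ι]

theorem choose_step {a b : ℕ} :
    ((b : ℚ) + 1) * (1 / ((a + b).choose a : ℚ)) =
      ((a : ℚ) + b + 1) * (1 / ((a + (b + 1)).choose a : ℚ)) := by
  have h1 : (a + b + 1) * (a + b).choose a = (a + (b + 1)).choose a * (b + 1) := by
    have h0 := Nat.add_one_mul_choose_eq (a + b) b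
    have h1 : (a + b).choose a = (a + b).choose b := Nat.choose_symm_add
    have h2 : (a + (b + 1)).choose a = (a + (b + 1)).choose (b + 1) := Nat.choose_symm_add
    rw [h1, h2, show a + (b + 1) = a + b + 1 by ring, h0]
  have h2 : ((a + b).choose a : ℚ) ≠ 0 := by
    exact_mod_cast (Nat.choose_pos (Nat.le_add_right a b)).ne'
  have h3 : ((a + (b + 1)).choose a : ℚ) ≠ 0 := by
    exact_mod_cast (Nat.choose_pos (Nat.le_add_right a (b + 1))).ne'
  rw [mul_one_div, mul_one_div, div_eq_div_iff h2 h3]
  have h4 : ((a + b + 1 : ℕ) : ℚ) * ((a + b).choose a : ℚ) =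
      ((a + (b + 1)).choose a : ℚ) * ((b + 1 : ℕ) : ℚ) := by exact_mod_cast h1
  push_cast at h4
  linarith

/-- **Bollobás's inequality for set pairs.** -/
theorem bollobas (N : ℕ) : ∀ (X : Finset V), X.card = N → ∀ (I : Finset ι) (A B : ι → Finset V),
    (∀ i ∈ I, A i ⊆ X) → (∀ i ∈ I, B i ⊆ X) → (∀ i ∈ I, Disjoint (A i) (B i)) →
    (∀ i ∈ I, ∀ j ∈ I, i ≠ j → ¬ Disjoint (A i) (B j)) →
    ∑ i ∈ I, (1 / (((A i).card + (B i).card).choose (A i).card : ℚ)) ≤ 1 := by
  induction N with
  | zero =>
    intro X hX I A B hA hB _ hne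
    have hX0 : X = ∅ := card_eq_zero.1 hX
    subst hX0
    have hI : I.card ≤ 1 := by
      rw [card_le_one]
      intro i hi j hj
      by_contra hij
      apply hne i hi j hj hij
      rw [subset_empty.1 (hA i hi)]
      exact disjoint_empty_left _
    calc ∑ i ∈ I, (1 / (((A i).card + (B i).card).choose (A i).card : ℚ))
        = ∑ i ∈ I, (1 : ℚ) := by
          refine sum_congr rfl fun i hi => ?_
          rw [subset_empty.1 (hA i hi), subset_empty.1 (hB i hi)]
          simp
      _ = I.card := by simp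
      _ ≤ 1 := by exact_mod_cast hI
  | succ N ih =>
    intro X hX I A B hA hB hd hne
    by_cases hemp : ∃ j ∈ I, B j = ∅
    · obtain ⟨j, hj, hj0⟩ := hemp
      have hI : I = {j} := by
        ext i
        rw [mem_singleton]
        constructor
        · intro hi
          by_contra hij
          apply hne i hi j hj hij
          rw [hj0]
          exact disjoint_empty_right _
        · rintro rfl
          exact hj
      rw [hI, sum_singleton, hj0]
      simp
    · push Not at hemp
      have hb : ∀ i ∈ I, 0 < (B i).card := fun i hi =>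
        card_pos.2 (hemp i hi)
      -- the inequality for every `x`
      have hx : ∀ x ∈ X, ∑ i ∈ I, (if x ∈ A i then (0 : ℚ) else
          1 / (((A i).card + ((B i).erase x).card).choose (A i).card : ℚ)) ≤ 1 := by
        intro x hxX
        have h1 := ih (X.erase x) (by rw [card_erase_of_mem hxX, hX]; rfl)
          (I.filter fun i => x ∉ A i) A (fun i => (B i).erase x)
          (by
            intro i hi
            rw [mem_filter] at hi
            intro y hy
            exact mem_erase.2 ⟨fun h => hi.2 (h ▸ hy), hA i hi.1 hy⟩)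
          (by
            intro i hi
            rw [mem_filter] at hi
            exact erase_subset_erase _ (hB i hi.1))
          (by
            intro i hi
            rw [mem_filter] at hi
            exact (hd i hi.1).mono_right (erase_subset _ _))
          (by
            intro i hi j hj hij
            rw [mem_filter] at hi hj
            have h2 := hne i hi.1 j hj.1 hij
            rw [not_disjoint_iff] at h2 ⊢
            obtain ⟨y, hyA, hyB⟩ := h2
            exact ⟨y, hyA, mem_erase.2 ⟨fun h => hi.2 (h ▸ hyA), hyB⟩⟩)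
        rw [sum_filter] at h1
        refine le_trans (le_of_eq ?_) h1
        refine sum_congr rfl fun i _ => ?_
        by_cases h : x ∈ A i
        · rw [if_pos h, if_neg (not_not.2 h)]
        · rw [if_neg h, if_pos h]
      have hsum := sum_le_sum hx
      rw [sum_const, hX, nsmul_eq_mul, mul_one, sum_comm] at hsum
      have hinner : ∀ i ∈ I, ∑ x ∈ X, (if x ∈ A i then (0 : ℚ) else
          1 / (((A i).card + ((B i).erase x).card).choose (A i).card : ℚ)) =
          (N + 1 : ℚ) * (1 / (((A i).card + (B i).card).choose (A i).card : ℚ)) := by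
        intro i hi
        obtain ⟨b, hbb⟩ : ∃ b, (B i).card = b + 1 := ⟨(B i).card - 1, by have := hb i hi; omega⟩
        have hsub : A i ∪ B i ⊆ X := union_subset (hA i hi) (hB i hi)
        have hXd : X = (X \ (A i ∪ B i)) ∪ (A i ∪ B i) := (sdiff_union_of_subset hsub).symm
        have hcu : (A i ∪ B i).card = (A i).card + (b + 1) := by
          rw [card_union_of_disjoint (hd i hi), hbb]
        have hcd : ((X \ (A i ∪ B i)).card : ℚ) = (N + 1) - ((A i).card + (b + 1)) := by
          have h1 := card_sdiff_add_card_eq_card hsub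
          rw [hX, hcu] at h1
          have h2 : (((X \ (A i ∪ B i)).card + ((A i).card + (b + 1)) : ℕ) : ℚ) =
              ((N + 1 : ℕ) : ℚ) := by exact_mod_cast h1
          push_cast at h2
          linarith
        rw [hXd, sum_union sdiff_disjoint, sum_union (hd i hi)]
        have e1 : ∑ x ∈ X \ (A i ∪ B i), (if x ∈ A i then (0 : ℚ) else
            1 / (((A i).card + ((B i).erase x).card).choose (A i).card : ℚ)) =
            ((X \ (A i ∪ B i)).card : ℚ) *
              (1 / (((A i).card + (b + 1)).choose (A i).card : ℚ)) := by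
          rw [← nsmul_eq_mul, ← sum_const]
          refine sum_congr rfl fun x hx => ?_
          rw [mem_sdiff, mem_union, not_or] at hx
          rw [if_neg hx.2.1, erase_eq_of_notMem hx.2.2, hbb]
        have e2 : ∑ x ∈ A i, (if x ∈ A i then (0 : ℚ) else
            1 / (((A i).card + ((B i).erase x).card).choose (A i).card : ℚ)) = 0 :=
          sum_eq_zero fun x hx => if_pos hx
        have e3 : ∑ x ∈ B i, (if x ∈ A i then (0 : ℚ) else
            1 / (((A i).card + ((B i).erase x).card).choose (A i).card : ℚ)) =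
            ((b : ℚ) + 1) * (1 / (((A i).card + b).choose (A i).card : ℚ)) := by
          have h1 : ((b : ℚ) + 1) = (((B i).card : ℕ) : ℚ) := by rw [hbb]; push_cast; ring
          rw [h1, ← nsmul_eq_mul, ← sum_const]
          refine sum_congr rfl fun x hx => ?_
          have hxA : x ∉ A i := fun h => (disjoint_left.1 (hd i hi)) h hx
          rw [if_neg hxA, card_erase_of_mem hx, hbb, Nat.add_sub_cancel]
        rw [e1, e2, e3, zero_add, choose_step, hcd, hbb]
        ring
      rw [sum_congr rfl hinner, ← mul_sum] at hsum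
      push_cast at hsum
      have hN : (0 : ℚ) < N + 1 := by positivity
      by_contra hcon
      push Not at hcon
      have := mul_lt_mul_of_pos_left hcon hN
      rw [mul_one] at this
      linarith

end Bollobas

section Small

variable {V : Type}

/-- A hypergraph with edges of size `r` and covering number `t` has a subhypergraph with the same
covering number and at most `binom(r + t - 1, r)` edges. -/
theorem exists_small {r : ℕ} {E : Finset (Finset V)} (hr : 0 < r) (hE : ∀ e ∈ E, e.card = r)
    {t : ℕ} (ht : IsTau E t) :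
    ∃ K ⊆ E, IsTau K t ∧ K.card ≤ (r + t - 1).choose r := by
  classical
  have hne : ∀ e ∈ E, e.Nonempty := fun e he => card_pos.1 (by rw [hE e he]; exact hr)
  -- a minimal subhypergraph
  obtain ⟨K, hK, hmin⟩ := Finset.exists_min_image
    (E.powerset.filter fun K => IsTau K t) Finset.card
    ⟨E, mem_filter.2 ⟨mem_powerset_self _, ht⟩⟩
  rw [mem_filter, mem_powerset] at hK
  refine ⟨K, hK.1, hK.2, ?_⟩
  rcases Nat.eq_zero_or_pos t with rfl | ht0
  · -- no edges
    have hK0 : K = ∅ := by
      by_contra hcon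
      obtain ⟨e, he⟩ := Finset.nonempty_iff_ne_empty.2 hcon
      obtain ⟨C, hC, hC0⟩ := hK.2.1
      rw [card_eq_zero] at hC0
      obtain ⟨v, -, hv⟩ := hC e he
      rw [hC0] at hv
      exact notMem_empty _ hv
    rw [hK0, card_empty]
    exact Nat.zero_le _
  have hcov : ∀ e ∈ K, ∃ C : Finset V, C.card ≤ t - 1 ∧ Disjoint e C ∧
      ∀ f ∈ K, f ≠ e → ¬ Disjoint f C := by
    intro e he
    have hneK : ∀ f ∈ K.erase e, f.Nonempty := fun f hf => hne f (hK.1 (mem_of_mem_erase hf))
    obtain ⟨s, hs⟩ := exists_tau hneK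
    have h1 : s ≤ t := tau_mono hK.2 hs (erase_subset _ _)
    have h2 : s ≠ t := by
      rintro rfl
      have h3 := hmin (K.erase e) (mem_filter.2 ⟨mem_powerset.2
        ((erase_subset _ _).trans hK.1), hs⟩)
      rw [card_erase_of_mem he] at h3
      have h4 : 0 < K.card := card_pos.2 ⟨e, he⟩
      omega
    obtain ⟨C, hC, hCs⟩ := hs.1
    refine ⟨C, by omega, ?_, ?_⟩
    · by_contra hcon
      rw [not_disjoint_iff] at hcon
      obtain ⟨v, hve, hvC⟩ := hcon
      have h3 := tau_le hK.2 (C := C) (by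
        intro f hf
        by_cases hfe : f = e
        · subst hfe
          exact ⟨v, hve, hvC⟩
        · exact hC f (mem_erase.2 ⟨hfe, hf⟩))
      omega
    · intro f hf hfe
      obtain ⟨v, hv, hvC⟩ := hC f (mem_erase.2 ⟨hfe, hf⟩)
      exact not_disjoint_iff.2 ⟨v, hv, hvC⟩
  choose! C hCc hCd hCn using hcov
  have hB := bollobas _ (K.biUnion fun e => e ∪ C e) rfl K (fun e => e) C
    (fun e he v hv => mem_biUnion.2 ⟨e, he, mem_union_left _ hv⟩)
    (fun e he v hv => mem_biUnion.2 ⟨e, he, mem_union_right _ hv⟩) hCd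
    (fun f hf e he hfe => hCn e he f hf hfe)
  have hle : ∀ e ∈ K, (1 / ((r + t - 1).choose r : ℚ)) ≤
      1 / ((e.card + (C e).card).choose e.card : ℚ) := by
    intro e he
    have h1 : e.card = r := hE e (hK.1 he)
    have h2 := hCc e he
    rw [h1]
    apply one_div_le_one_div_of_le
    · exact_mod_cast Nat.choose_pos (Nat.le_add_right _ _)
    · exact_mod_cast Nat.choose_le_choose r (by omega)
  have h3 := (sum_le_sum hle).trans hB
  rw [sum_const, nsmul_eq_mul, mul_one_div] at h3
  have h4 : (0 : ℚ) < ((r + t - 1).choose r : ℚ) := by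
    exact_mod_cast Nat.choose_pos (by omega)
  rw [div_le_one h4] at h3
  exact_mod_cast h3

/-- An intersecting hypergraph with at most `2 k` edges has a cover with `k` vertices. -/
theorem exists_cover_half (k : ℕ) : ∀ E : Finset (Finset V), (∀ e ∈ E, e.Nonempty) →
    (∀ e ∈ E, ∀ f ∈ E, ¬ Disjoint e f) → E.card ≤ 2 * k →
    ∃ C : Finset V, (∀ e ∈ E, ∃ v ∈ e, v ∈ C) ∧ C.card ≤ k := by
  classical
  induction k with
  | zero =>
    intro E _ _ hc
    have : E = ∅ := card_eq_zero.1 (by omega)
    subst this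
    exact ⟨∅, by simp, by simp⟩
  | succ k ih =>
    intro E hne hI hc
    rcases E.eq_empty_or_nonempty with rfl | ⟨e, he⟩
    · exact ⟨∅, by simp, by simp⟩
    · rcases (E.erase e).eq_empty_or_nonempty with h0 | ⟨f, hf⟩
      · obtain ⟨v, hv⟩ := hne e he
        refine ⟨{v}, fun f hf => ?_, by simp⟩
        have hfe : f = e := by
          by_contra h
          have : f ∈ E.erase e := mem_erase.2 ⟨h, hf⟩
          rw [h0] at this
          exact notMem_empty _ this
        subst hfe
        exact ⟨v, hv, mem_singleton_self _⟩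
      · have hf' := mem_erase.1 hf
        have h1 := hI e he f hf'.2
        rw [not_disjoint_iff] at h1
        obtain ⟨v, hve, hvf⟩ := h1
        have h2 : ((E.erase e).erase f).card ≤ 2 * k := by
          rw [card_erase_of_mem hf, card_erase_of_mem he]
          omega
        have hsub : (E.erase e).erase f ⊆ E := (erase_subset _ _).trans (erase_subset _ _)
        obtain ⟨C, hC, hCc⟩ := ih _ (fun g hg => hne g (hsub hg))
          (fun g hg g' hg' => hI g (hsub hg) g' (hsub hg')) h2
        refine ⟨insert v C, fun g hg => ?_, (card_insert_le _ _).trans (by omega)⟩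
        by_cases hge : g = e
        · subst hge
          exact ⟨v, hve, mem_insert_self _ _⟩
        · by_cases hgf : g = f
          · subst hgf
            exact ⟨v, hvf, mem_insert_self _ _⟩
          · obtain ⟨w, hw, hwC⟩ := hC g (mem_erase.2 ⟨hgf, mem_erase.2 ⟨hge, hg⟩⟩)
            exact ⟨w, hw, mem_insert_of_mem hwC⟩

/-- At least `2 t - 1` edges. -/
theorem card_ge {E : Finset (Finset V)} (hne : ∀ e ∈ E, e.Nonempty)
    (hI : ∀ e ∈ E, ∀ f ∈ E, ¬ Disjoint e f) {t : ℕ} (ht : IsTau E t) : 2 * t - 1 ≤ E.card := by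
  by_contra hcon
  push Not at hcon
  obtain ⟨C, hC, hCc⟩ := exists_cover_half (t - 1) E hne hI (by omega)
  have := tau_le ht hC
  omega

/-- Disjoint copies. -/
theorem exists_copies {r : ℕ} (hr : 0 < r) {part : V → Fin r} {E : Finset (Finset V)}
    (h : IsPart part E) (hE : E.Nonempty) (hI : ∀ e ∈ E, ∀ f ∈ E, ¬ Disjoint e f)
    (hτ : IsTau E r) (m : ℕ) :
    ∃ (part' : Fin m × V → Fin r) (E' : Finset (Finset (Fin m × V))), IsPart part' E' ∧
      IsNu E' m ∧ IsTau E' (r * m) ∧ E'.card ≤ m * E.card := by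
  classical
  let cp : Fin m → Finset V → Finset (Fin m × V) := fun j e => e.image fun v => (j, v)
  have hcp : ∀ j e v, v ∈ cp j e ↔ v.1 = j ∧ v.2 ∈ e := by
    intro j e v
    simp only [cp, mem_image]
    constructor
    · rintro ⟨w, hw, rfl⟩; exact ⟨rfl, hw⟩
    · rintro ⟨h1, h2⟩; exact ⟨v.2, h2, by rw [← h1]⟩
  let E' : Finset (Finset (Fin m × V)) := (univ ×ˢ E).image fun x => cp x.1 x.2
  have hmem : ∀ j e, e ∈ E → cp j e ∈ E' := by
    intro j e he
    exact mem_image.mpr ⟨(j, e), mem_product.mpr ⟨mem_univ _, he⟩, rfl⟩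
  have hmem' : ∀ e' ∈ E', ∃ j, ∃ e ∈ E, e' = cp j e := by
    intro e' he'
    obtain ⟨⟨j, e⟩, hje, rfl⟩ := mem_image.mp he'
    exact ⟨j, e, (mem_product.mp hje).2, rfl⟩
  have hP : IsPart (fun v : Fin m × V => part v.2) E' := by
    intro e' he' i
    obtain ⟨j, e, he, rfl⟩ := hmem' e' he'
    obtain ⟨v, ⟨hv1, hv2⟩, hv3⟩ := h e he i
    refine ⟨(j, v), ⟨(hcp _ _ _).mpr ⟨rfl, hv1⟩, hv2⟩, ?_⟩
    rintro ⟨j', v'⟩ ⟨h1, h2⟩
    have h1' := (hcp _ _ _).mp h1
    simp only at h1' h2
    rw [h1'.1, hv3 v' ⟨h1'.2, h2⟩]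
  obtain ⟨e0, he0⟩ := hE
  have hcpd : ∀ j e, e ∈ E → ∀ j' f, f ∈ E → (Disjoint (cp j e) (cp j' f) ↔ j ≠ j') := by
    intro j e he j' f hf
    constructor
    · rintro hd rfl
      have h1 := hI e he f hf
      rw [not_disjoint_iff] at h1
      obtain ⟨v, hv1, hv2⟩ := h1
      exact (disjoint_left.mp hd) ((hcp j e (j, v)).2 ⟨rfl, hv1⟩) ((hcp j f (j, v)).2 ⟨rfl, hv2⟩)
    · intro hjj
      rw [disjoint_left]
      intro v hv hv'
      exact hjj (((hcp _ _ _).mp hv).1.symm.trans ((hcp _ _ _).mp hv').1)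
  have hcpi : Function.Injective fun j => cp j e0 := by
    intro j j' hjj
    by_contra hne
    have h1 := (hcpd j e0 he0 j' e0 he0).2 hne
    have h2 : cp j e0 = cp j' e0 := hjj
    obtain ⟨v, hv⟩ := h.nonempty hr e0 he0
    have h3 : (j, v) ∈ cp j e0 := (hcp _ _ _).2 ⟨rfl, hv⟩
    exact (disjoint_left.1 h1) h3 (h2 ▸ h3)
  refine ⟨_, E', hP, ⟨⟨univ.image fun j => cp j e0, ?_, ?_, ?_⟩, ?_⟩, ⟨?_, ?_⟩, ?_⟩
  · intro e' he'
    obtain ⟨j, _, rfl⟩ := mem_image.mp he'
    exact hmem j e0 he0
  · intro A hA B hB hAB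
    obtain ⟨j, _, rfl⟩ := mem_image.mp (mem_coe.mp hA)
    obtain ⟨j', _, rfl⟩ := mem_image.mp (mem_coe.mp hB)
    exact (hcpd j e0 he0 j' e0 he0).2 fun hjj => hAB (by rw [hjj])
  · rw [card_image_of_injective _ hcpi, card_univ, Fintype.card_fin]
  · rintro k ⟨M, hM1, hM2, rfl⟩
    rcases M.eq_empty_or_nonempty with rfl | ⟨E0, hE0⟩
    · simp
    have h1 : ∀ A ∈ M, ∃ j, ∃ e ∈ E, A = cp j e := fun A hA => hmem' A (hM1 hA)
    have : Nonempty (Fin m) := ⟨(h1 E0 hE0).choose⟩
    choose! j e he hj using h1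
    have h2 : Set.InjOn j (M : Set (Finset (Fin m × V))) := by
      intro A hA B hB hAB
      by_contra hne'
      have hd := hM2 hA hB hne'
      rw [hj A hA, hj B hB, hcpd _ _ (he A hA) _ _ (he B hB)] at hd
      exact hd hAB
    calc M.card ≤ (univ : Finset (Fin m)).card :=
          card_le_card_of_injOn j (fun _ _ => mem_univ _) h2
      _ = m := by simp
  · obtain ⟨C0, hC0, hC0c⟩ := hτ.1
    refine ⟨univ ×ˢ C0, ?_, ?_⟩
    · intro A hA
      obtain ⟨j, e, he, rfl⟩ := hmem' A hA
      obtain ⟨v, hv1, hv2⟩ := hC0 e he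
      exact ⟨(j, v), (hcp _ _ _).mpr ⟨rfl, hv1⟩, mem_product.mpr ⟨mem_univ _, hv2⟩⟩
    · rw [card_product, hC0c, card_univ, Fintype.card_fin, mul_comm]
  · rintro k ⟨C, hC, rfl⟩
    have h1 : ∀ j : Fin m, r ≤ (C.filter fun v => v.1 = j).card := by
      intro j
      have h2 := tau_le hτ (C := (C.filter fun v => v.1 = j).image Prod.snd) (by
        intro e he
        obtain ⟨v, hv1, hv2⟩ := hC (cp j e) (hmem j e he)
        obtain ⟨h3, h4⟩ := (hcp _ _ _).mp hv1
        exact ⟨v.2, h4, mem_image.mpr ⟨v, mem_filter.mpr ⟨hv2, h3⟩, rfl⟩⟩)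
      exact h2.trans card_image_le
    have h2 : C.card = ∑ j : Fin m, (C.filter fun v => v.1 = j).card :=
      card_eq_sum_card_fiberwise (fun v _ => mem_coe.mpr (mem_univ _))
    rw [h2]
    calc r * m = ∑ _j : Fin m, r := by simp [mul_comm]
      _ ≤ _ := sum_le_sum fun j _ => h1 j
  · refine card_image_le.trans ?_
    rw [card_product, card_univ, Fintype.card_fin]

end Small

end Vale.Agent.P045.H114
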